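import Vale.Agent.P281.H842.HKT.Fub
import Mathlib.Analysis.Distribution.AEEqOfIntegralContDiff

/-!
# P281, helper225: the integral over `E` as the integral of the integrals over the fibres of a map
(sheets adapted to the map), and the conclusion for almost all fibres
-/

open Set Filter Metric MeasureTheory Vale.Agent.P272.K
open scoped Topology ContDiff ComplexConjugate ComplexOrder Pointwise

noncomputable section

namespace Vale.Agent.P281.H225.R5

open Vale.Agent.P281.H64.TK
open Vale.Agent.P281.H842.HKT (ap p1 p2 pe vol_pe ap_cont ap_mem mem_ball_iff p1_ap p2_ap ap_p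
  pe_apply)
open Vale.Agent.P281 (H840.TS.P_sub H840.TS.meas_P)

variable {a m : ℕ}

/-- the slice of a set -/
def slc (P : Set (Cm (a + m))) (t : Cm a) : Set (Cm m) := {y | ap t y ∈ P}

/-- Fubini on a subset of the unit ball -/
theorem int_slc {P : Set (Cm (a + m))} (hP : MeasurableSet P) (hb : P ⊆ ball 0 1)
    {D : Cm (a + m) → ℂ} (hD : ContinuousOn D (ball 0 3)) :
    IntegrableOn (fun t => ∫ y in slc P t, D (ap t y)) (ball (0 : Cm a) 1) ∧
      ∫ z in P, D z = ∫ t in ball (0 : Cm a) 1, ∫ y in slc P t, D (ap t y) := by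
  classical
  set G : Cm a × Cm m → ℂ := fun q => P.indicator D (ap q.1 q.2) with hG
  have hint : IntegrableOn D P := by
    have h1 : IntegrableOn D (closedBall (0 : Cm (a + m)) 1) :=
      (hD.mono (closedBall_subset_ball (by norm_num))).integrableOn_compact
        (isCompact_closedBall 0 1)
    exact h1.mono_set (hb.trans ball_subset_closedBall)
  have hGi : Integrable G (volume.prod volume) := by
    have h1 : Integrable (P.indicator D) := (integrable_indicator_iff hP).2 hint
    have h2 := ((vol_pe a m).integrable_comp_emb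
      (pe a m).toHomeomorph.measurableEmbedding (g := G)).1
    refine h2 (h1.congr (Eventually.of_forall fun z => ?_))
    show P.indicator D z = G (p1 z, p2 z)
    simp only [hG, ap_p]
  have hslice : ∀ t, ∫ y, G (t, y) = ∫ y in slc P t, D (ap t y) := by
    intro t
    have hm : MeasurableSet (slc P t) := by
      have : Continuous fun y : Cm m => ap t y :=
        ap_cont.comp (continuous_const.prodMk continuous_id)
      exact this.measurable hP
    rw [← integral_indicator hm]
    refine integral_congr_ae (Eventually.of_forall fun y => ?_)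
    simp only [hG, indicator, slc, mem_setOf_eq]
  have hout : ∀ t, t ∉ ball (0 : Cm a) 1 → ∫ y, G (t, y) = 0 := by
    intro t ht
    have h1 : ∀ y, G (t, y) = 0 := by
      intro y
      simp only [hG]
      refine indicator_of_notMem (fun h => ht ?_) _
      have h2 := ((mem_ball_iff _ _).1 (hb h)).1
      rwa [p1_ap] at h2
    simp only [h1, integral_zero]
  refine ⟨?_, ?_⟩
  · have h1 := hGi.integral_prod_left
    refine (h1.integrableOn (s := ball (0 : Cm a) 1)).congr
      (Eventually.of_forall fun t => (hslice t))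
  · have h1 : ∫ z in P, D z = ∫ z, P.indicator D z := (integral_indicator hP).symm
    have h2 : ∫ z, P.indicator D z = ∫ q, G q ∂(volume.prod volume) := by
      have h3 := (vol_pe a m).integral_comp
        (pe a m).toHomeomorph.measurableEmbedding G
      rw [Measure.volume_eq_prod] at h3
      rw [← h3]
      refine integral_congr_ae (Eventually.of_forall fun z => ?_)
      show P.indicator D z = G (p1 z, p2 z)
      simp only [hG, ap_p]
    rw [h1, h2, integral_prod _ hGi]
    rw [← integral_indicator measurableSet_ball]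
    refine integral_congr_ae (Eventually.of_forall fun t => ?_)
    by_cases ht : t ∈ ball (0 : Cm a) 1
    · simp only [indicator_of_mem ht]
      exact hslice t
    · simp only [indicator_of_notMem ht]
      exact hout t ht

section
variable {E K : Type} [TopologicalSpace E] [Group K] [MulAction K E]

/-- **R5, Fubini**: `ad` = the adapted sheets, the integrand is zero on the others -/
theorem slice_int (S : Sheets (a + m) E K) (hm : ∀ q, MeasurableSet (S.P q)) {N : ℕ}
    (ad : Fin N → Fin S.N) (hinj : Function.Injective ad)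
    (D : Fin S.N → Cm (a + m) → ℂ) (hD : ∀ k, ContinuousOn (D (ad k)) (ball 0 3))
    (h0 : ∀ q, q ∉ range ad → ∀ z ∈ S.P q, D q z = 0) :
    S.int D = ∫ t in ball (0 : Cm a) 1, ∑ k, ∫ y in slc (S.P (ad k)) t, D (ad k) (ap t y) := by
  classical
  have hb : ∀ q, S.P q ⊆ ball 0 1 := fun q => H840.TS.P_sub S q
  rw [integral_finsetSum _ fun k _ => (int_slc (hm (ad k)) (hb (ad k)) (hD k)).1]
  unfold Sheets.int
  have h1 : ∑ q, ∫ z in S.P q, D q z = ∑ q ∈ Finset.univ.map ⟨ad, hinj⟩, ∫ z in S.P q, D q z := by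
    symm
    refine Finset.sum_subset (Finset.subset_univ _) fun q _ hq => ?_
    refine setIntegral_eq_zero_of_forall_eq_zero (h0 q fun ⟨k, hk⟩ => hq ?_)
    exact Finset.mem_map.2 ⟨k, Finset.mem_univ _, hk⟩
  rw [h1, Finset.sum_map]
  exact Finset.sum_congr rfl fun k _ => (int_slc (hm (ad k)) (hb (ad k)) (hD k)).2

end

/-! ### Test functions -/

section
variable (Λ : AddSubgroup (Cm a)) (t₀ : Cm a) (ε : ℝ)

open Classical in
/-- the `Λ`-periodic function which is `g ((v - t₀) / ε)` on `ball t₀ ε` -/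
def per (g : Cm a → ℝ) (v : Cm a) : ℂ :=
  if h : ∃ l ∈ Λ, v - l ∈ ball t₀ ε then (g ((ε : ℂ)⁻¹ • (v - h.choose - t₀)) : ℂ) else 0

variable {Λ t₀ ε}

theorem uniq (hε : ∀ l ∈ Λ, l ≠ 0 → 4 * ε ≤ ‖l‖) {v l l' : Cm a} (hl : l ∈ Λ) (hl' : l' ∈ Λ)
    (h : v - l ∈ ball t₀ ε) (h' : v - l' ∈ ball t₀ ε) : l = l' := by
  by_contra hne
  have h1 := hε (l - l') (Λ.sub_mem hl hl') (sub_ne_zero.2 hne)
  rw [mem_ball_iff_norm] at h h'
  have h2 : l - l' = (v - l' - t₀) - (v - l - t₀) := by abel
  have h3 : ‖l - l'‖ < 2 * ε := by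
    rw [h2]
    calc _ ≤ ‖v - l' - t₀‖ + ‖v - l - t₀‖ := norm_sub_le _ _
      _ < 2 * ε := by linarith
  have h4 : 0 < ε := (norm_nonneg _).trans_lt h
  linarith

theorem per_eq (hε : ∀ l ∈ Λ, l ≠ 0 → 4 * ε ≤ ‖l‖) (g : Cm a → ℝ) {v l : Cm a} (hl : l ∈ Λ)
    (h : v - l ∈ ball t₀ ε) : per Λ t₀ ε g v = g ((ε : ℂ)⁻¹ • (v - l - t₀)) := by
  have hex : ∃ l ∈ Λ, v - l ∈ ball t₀ ε := ⟨l, hl, h⟩
  rw [per, dif_pos hex, uniq hε hex.choose_spec.1 hl hex.choose_spec.2 h]

theorem per_add (hε : ∀ l ∈ Λ, l ≠ 0 → 4 * ε ≤ ‖l‖) (g : Cm a → ℝ) (v : Cm a) {l : Cm a}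
    (hl : l ∈ Λ) : per Λ t₀ ε g (v + l) = per Λ t₀ ε g v := by
  by_cases h : ∃ l ∈ Λ, v - l ∈ ball t₀ ε
  · obtain ⟨l', hl', h'⟩ := h
    have h1 : v + l - (l' + l) = v - l' := by abel
    rw [per_eq hε g hl' h', per_eq hε g (Λ.add_mem hl' hl) (by rw [h1]; exact h'), h1]
  · have h2 : ¬ ∃ l' ∈ Λ, v + l - l' ∈ ball t₀ ε := by
      rintro ⟨l', hl', h'⟩
      refine h ⟨l' - l, Λ.sub_mem hl' hl, ?_⟩
      have h1 : v - (l' - l) = v + l - l' := by abel
      rw [h1]
      exact h'
    rw [per, per, dif_neg h, dif_neg h2]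

theorem per_zero (g : Cm a → ℝ) {v : Cm a} (h : ¬ ∃ l ∈ Λ, v - l ∈ ball t₀ ε) :
    per Λ t₀ ε g v = 0 := by
  rw [per, dif_neg h]

/-- the value in the adapted coordinate -/
theorem per_coord (hε0 : 0 < ε) (hε : ∀ l ∈ Λ, l ≠ 0 → 4 * ε ≤ ‖l‖) (g : Cm a → ℝ) {t : Cm a}
    (ht : t ∈ ball (0 : Cm a) 1) : per Λ t₀ ε g (t₀ + (ε : ℂ) • t) = g t := by
  have hεc : (ε : ℂ) ≠ 0 := by exact_mod_cast hε0.ne'
  have h1 : t₀ + (ε : ℂ) • t - 0 ∈ ball t₀ ε := by
    rw [mem_ball_iff_norm]
    have h2 : t₀ + (ε : ℂ) • t - 0 - t₀ = (ε : ℂ) • t := by abel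
    rw [h2, norm_smul, Complex.norm_real, Real.norm_of_nonneg hε0.le]
    have h3 : ‖t‖ < 1 := by simpa using ht
    nlinarith
  rw [per_eq hε g Λ.zero_mem h1]
  congr 2
  have h2 : t₀ + (ε : ℂ) • t - 0 - t₀ = (ε : ℂ) • t := by abel
  rw [h2, smul_smul, inv_mul_cancel₀ hεc, one_smul]

theorem per_cont (hΛ : IsClosed (Λ : Set (Cm a))) (hε0 : 0 < ε)
    (hε : ∀ l ∈ Λ, l ≠ 0 → 4 * ε ≤ ‖l‖) {g : Cm a → ℝ} (hg : Continuous g)
    (hc : HasCompactSupport g) (hs : tsupport g ⊆ ball (0 : Cm a) 1) :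
    Continuous (per Λ t₀ ε g) := by
  have hεc : (ε : ℂ) ≠ 0 := by exact_mod_cast hε0.ne'
  rw [continuous_iff_continuousAt]
  intro v
  by_cases h : ∃ l ∈ Λ, v - l ∈ ball t₀ ε
  · obtain ⟨l, hl, hv⟩ := h
    have h1 : ∀ᶠ v' in 𝓝 v, v' - l ∈ ball t₀ ε :=
      (continuous_id.sub continuous_const).continuousAt.eventually (isOpen_ball.mem_nhds hv)
    have h2 : per Λ t₀ ε g =ᶠ[𝓝 v] fun v' => ((g ((ε : ℂ)⁻¹ • (v' - l - t₀)) : ℝ) : ℂ) := by
      filter_upwards [h1] with v' hv'
      exact per_eq hε g hl hv'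
    refine ContinuousAt.congr ?_ h2.symm
    refine Continuous.continuousAt ?_
    fun_prop
  · set C : Set (Cm a) := (fun t : Cm a => t₀ + (ε : ℂ) • t) '' tsupport g with hC
    have hCc : IsCompact C := hc.isCompact.image (by fun_prop)
    have h1 : IsClosed ((Λ : Set (Cm a)) + C) := hΛ.add_right_of_isCompact hCc
    have hCb : ∀ t ∈ tsupport g, t₀ + (ε : ℂ) • t ∈ ball t₀ ε := by
      intro t ht
      rw [mem_ball_iff_norm]
      have h2 : t₀ + (ε : ℂ) • t - t₀ = (ε : ℂ) • t := by abel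
      rw [h2, norm_smul, Complex.norm_real, Real.norm_of_nonneg hε0.le]
      have h3 : ‖t‖ < 1 := by simpa using hs ht
      nlinarith
    have h2 : v ∉ (Λ : Set (Cm a)) + C := by
      rintro ⟨l, hl, c, ⟨t, ht, rfl⟩, rfl⟩
      refine h ⟨l, hl, ?_⟩
      simp only [add_sub_cancel_left]
      exact hCb t ht
    have h3 : per Λ t₀ ε g =ᶠ[𝓝 v] fun _ => 0 := by
      filter_upwards [h1.isOpen_compl.mem_nhds h2] with v' hv'
      by_cases h4 : ∃ l ∈ Λ, v' - l ∈ ball t₀ ε
      · obtain ⟨l, hl, hl'⟩ := h4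
        rw [per_eq hε g hl hl']
        by_contra h5
        have h6 : g ((ε : ℂ)⁻¹ • (v' - l - t₀)) ≠ 0 := fun h7 => h5 (by rw [h7]; simp)
        refine hv' ⟨l, hl, v' - l, ⟨_, subset_tsupport g h6, ?_⟩, by abel⟩
        show t₀ + (ε : ℂ) • (ε : ℂ)⁻¹ • (v' - l - t₀) = v' - l
        rw [smul_smul, mul_inv_cancel₀ hεc, one_smul]
        abel
      · exact per_zero g h4
    exact (continuousAt_const (y := (0 : ℂ))).congr h3.symm

end

/-- **R5**: from the equality of the integrals against all periodic functions of `F` to the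
equality of the integrals over almost all fibres; `F q` is the map in the sheet number `q`. -/
theorem ae_fibre {E K : Type} [TopologicalSpace E] [Group K] [MulAction K E]
    (S : Sheets (a + m) E K) (hm : ∀ q, MeasurableSet (S.P q)) {N : ℕ}
    (ad : Fin N → Fin S.N) (hinj : Function.Injective ad) {Λ : AddSubgroup (Cm a)} {t₀ : Cm a}
    {ε : ℝ} (hΛ : IsClosed (Λ : Set (Cm a))) (hε0 : 0 < ε)
    (hε : ∀ l ∈ Λ, l ≠ 0 → 4 * ε ≤ ‖l‖) {F : Fin S.N → Cm (a + m) → Cm a}
    (had : ∀ k, ∀ z ∈ ball (0 : Cm (a + m)) 3, F (ad k) z = t₀ + (ε : ℂ) • p1 z)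
    (hout : ∀ q, q ∉ range ad → ∀ z ∈ S.P q, ∀ l ∈ Λ, F q z - l ∉ ball t₀ ε)
    (D D' : Fin S.N → Cm (a + m) → ℂ) (hD : ∀ k, ContinuousOn (D (ad k)) (ball 0 3))
    (hD' : ∀ k, ContinuousOn (D' (ad k)) (ball 0 3)) (A A' : ℂ)
    (h : ∀ φ : Cm a → ℂ, Continuous φ → (∀ v, ∀ l ∈ Λ, φ (v + l) = φ v) →
      A * S.int (fun q z => φ (F q z) * D q z) = A' * S.int (fun q z => φ (F q z) * D' q z)) :
    ∀ᵐ t : Cm a, t ∈ ball (0 : Cm a) 1 →
      A * ∑ k, ∫ y in slc (S.P (ad k)) t, D (ad k) (ap t y) =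
        A' * ∑ k, ∫ y in slc (S.P (ad k)) t, D' (ad k) (ap t y) := by
  classical
  have hb : ∀ q, S.P q ⊆ ball 0 1 := fun q => H840.TS.P_sub S q
  have hF : ∀ k, ContinuousOn (F (ad k)) (ball 0 3) := by
    intro k
    have h1 : Continuous fun z : Cm (a + m) => t₀ + (ε : ℂ) • p1 z := by
      have : Continuous fun z : Cm (a + m) => p1 z := continuous_fst.comp (pe a m).continuous
      fun_prop
    exact h1.continuousOn.congr fun z hz => had k z hz
  set I : (Fin S.N → Cm (a + m) → ℂ) → Cm a → ℂ :=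
    fun D t => ∑ k, ∫ y in slc (S.P (ad k)) t, D (ad k) (ap t y) with hI
  have hIi : ∀ D : Fin S.N → Cm (a + m) → ℂ, (∀ k, ContinuousOn (D (ad k)) (ball 0 3)) →
      IntegrableOn (I D) (ball 0 1) := fun D hD =>
    integrable_finsetSum _ fun k _ => (int_slc (hm (ad k)) (hb (ad k)) (hD k)).1
  have key : ∀ D : Fin S.N → Cm (a + m) → ℂ, (∀ k, ContinuousOn (D (ad k)) (ball 0 3)) →
      ∀ g : Cm a → ℝ, Continuous g → HasCompactSupport g → tsupport g ⊆ ball (0 : Cm a) 1 →
      S.int (fun q z => per Λ t₀ ε g (F q z) * D q z) =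
        ∫ t in ball (0 : Cm a) 1, (g t : ℂ) * I D t := by
    intro D hD g hg hc hs
    rw [slice_int S hm ad hinj (fun q z => per Λ t₀ ε g (F q z) * D q z)
      (fun k => ((per_cont hΛ hε0 hε hg hc hs).comp_continuousOn (hF k)).mul (hD k)) ?_]
    · refine setIntegral_congr_fun measurableSet_ball fun t ht => ?_
      simp only [hI, Finset.mul_sum]
      refine Finset.sum_congr rfl fun k _ => ?_
      rw [← integral_const_mul]
      have hms : MeasurableSet (slc (S.P (ad k)) t) := by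
        have : Continuous fun y : Cm m => ap t y :=
          ap_cont.comp (continuous_const.prodMk continuous_id)
        exact this.measurable (hm (ad k))
      refine setIntegral_congr_fun hms fun y hy => ?_
      have h1 := had k (ap t y) (ball_subset_ball (by norm_num) (hb _ hy))
      rw [p1_ap] at h1
      simp only [h1, per_coord hε0 hε g ht]
    · intro q hq z hz
      have h1 : per Λ t₀ ε g (F q z) = 0 :=
        per_zero g fun ⟨l, hl, h2⟩ => hout q hq z hz l hl h2
      simp only [h1, zero_mul]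
  have hfi : IntegrableOn (fun t => A * I D t - A' * I D' t) (ball (0 : Cm a) 1) :=
    ((hIi D hD).const_mul A).sub ((hIi D' hD').const_mul A')
  have hfin : LocallyIntegrableOn (fun t => A * I D t - A' * I D' t) (ball (0 : Cm a) 1) :=
    hfi.locallyIntegrableOn
  have h1 := isOpen_ball.ae_eq_zero_of_integral_contDiff_smul_eq_zero hfin
    (fun g hg hc hs => ?_)
  · filter_upwards [h1] with t ht htb
    exact sub_eq_zero.1 (ht htb)
  · have h2 := h (per Λ t₀ ε g) (per_cont hΛ hε0 hε hg.continuous hc hs)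
      (fun v l hl => per_add hε g v hl)
    rw [key D hD g hg.continuous hc hs, key D' hD' g hg.continuous hc hs] at h2
    have hgi : ∀ D : Fin S.N → Cm (a + m) → ℂ, (∀ k, ContinuousOn (D (ad k)) (ball 0 3)) →
        IntegrableOn (fun t => (g t : ℂ) * I D t) (ball (0 : Cm a) 1) := by
      intro D hD
      obtain ⟨C, hC⟩ := hg.continuous.bounded_above_of_compact_support hc
      refine (hIi D hD).bdd_mul (c := C) ?_ (Eventually.of_forall fun t => ?_)
      · exact (Complex.continuous_ofReal.comp hg.continuous).aestronglyMeasurable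
      · simpa using hC t
    have h3 : ∫ t, g t • (A * I D t - A' * I D' t) =
        ∫ t in ball (0 : Cm a) 1, (A * ((g t : ℂ) * I D t) - A' * ((g t : ℂ) * I D' t)) := by
      rw [← integral_indicator measurableSet_ball]
      refine integral_congr_ae (Eventually.of_forall fun t => ?_)
      by_cases ht : t ∈ ball (0 : Cm a) 1
      · simp only [indicator_of_mem ht, Complex.real_smul]
        ring
      · have h4 : g t = 0 := by
          by_contra h5
          exact ht (hs (subset_tsupport g h5))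
        simp only [indicator_of_notMem ht, h4, zero_smul]
    rw [h3, integral_sub ((hgi D hD).const_mul A) ((hgi D' hD').const_mul A'),
      integral_const_mul, integral_const_mul, h2, sub_self]

end Vale.Agent.P281.H225.R5
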